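import Vale.Agent.P155Z.Sk

/-!
# P155, block PVX: adapted time integrals and the primitives of small odd functions
-/

namespace Vale.Agent.P155.Tree

open MeasureTheory Filter Topology ProbabilityTheory Set

theorem pvm : PVM := by
  intro Θ m P S f hf ⟨C, hC⟩
  have hint : ∀ ω a b, IntervalIntegrable (fun s => f (S.X ω s)) volume a b := by
    intro ω a b
    refine (intervalIntegrable_const (c := C)).mono_fun' ?_ (ae_of_all _ fun s => hC _)
    exact (hf.comp (S.cont ω).measurable).aestronglyMeasurable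
  refine ⟨fun ω => intervalIntegral.continuous_primitive (hint ω) 0, fun t ht => ?_⟩
  have h1 : Measurable[(inferInstance : MeasurableSpace ℝ).prod (S.F t)]
      (Function.uncurry fun (s : ℝ) (ω : Θ) => S.X ω (min s t)) :=
    measurable_uncurry_of_continuous_of_measurable (m := S.F t)
      (fun ω => (S.cont ω).comp (continuous_id.min continuous_const))
      (fun s => (S.ad (min s t)).mono (S.F.mono (min_le_right _ _)) le_rfl)
  have h2 := @StronglyMeasurable.integral_prod_left ℝ Θ ℝ _ (S.F t) (volume.restrict (Ioc 0 t))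
    _ _ _ (fun s ω => f (S.X ω (min s t))) (hf.comp h1).stronglyMeasurable
  have h3 : (fun ω => ∫ s in (0 : ℝ)..t, f (S.X ω s)) =
      fun ω => ∫ s in Ioc 0 t, f (S.X ω (min s t)) := by
    funext ω
    rw [intervalIntegral.integral_of_le ht]
    refine setIntegral_congr_fun measurableSet_Ioc fun s hs => ?_
    simp only [min_eq_left hs.2]
  rw [h3]
  exact h2.measurable

namespace PVX

theorem meas_le_of_ev {Θ : Type} [MeasurableSpace Θ] {P : Measure Θ} {A : Set Θ}
    {B : ℕ → Set Θ} {c : ENNReal} (h : ∀ᵐ ω ∂P, ω ∈ A → ∀ᶠ n in atTop, ω ∈ B n)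
    (hc : ∀ᶠ n in atTop, P (B n) ≤ c) : P A ≤ c := by
  have hm : Monotone fun N => ⋂ n ∈ Ici N, B n := fun N N' hN =>
    biInter_subset_biInter_left (Ici_subset_Ici.2 hN)
  have h1 : P A ≤ P (⋃ N, ⋂ n ∈ Ici N, B n) := by
    refine measure_mono_ae ?_
    filter_upwards [h] with ω hω hA
    obtain ⟨N, hN⟩ := eventually_atTop.1 (hω hA)
    exact mem_iUnion.2 ⟨N, mem_iInter₂.2 hN⟩
  refine h1.trans ?_
  rw [hm.measure_iUnion]
  refine iSup_le fun N => ?_
  obtain ⟨n, hn1, hn2⟩ := (hc.and (eventually_ge_atTop N)).exists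
  exact (measure_mono (biInter_subset_of_mem (show n ∈ Ici N from hn2))).trans hn1

/-- the integrable weight -/
noncomputable def ww (x : ℝ) : ℝ := (Icc (-1 : ℝ) 1).indicator (fun x => |x| ^ (-(1 / 2) : ℝ)) x

theorem ww_nonneg (x : ℝ) : 0 ≤ ww x :=
  indicator_nonneg (fun y _ => Real.rpow_nonneg (abs_nonneg y) _) x

theorem integrable_ww : Integrable ww := by
  have h1 : IntervalIntegrable (fun x : ℝ => |x| ^ (-(1 / 2) : ℝ)) volume 0 1 := by
    have := intervalIntegral.intervalIntegrable_rpow' (a := 0) (b := 1) (r := -(1 / 2))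
      (by norm_num)
    refine this.congr fun x hx => ?_
    rw [uIoc_of_le zero_le_one] at hx
    simp only [abs_of_pos hx.1]
  have h2 : IntervalIntegrable (fun x : ℝ => |x| ^ (-(1 / 2) : ℝ)) volume (-1) 0 := by
    have := (IntervalIntegrable.iff_comp_neg (by simp)).1 h1
    simpa using this.symm
  have h3 := h2.trans h1
  rw [intervalIntegrable_iff_integrableOn_Icc_of_le (by norm_num)] at h3
  exact h3.integrable_indicator measurableSet_Icc

/-- its integral -/
noncomputable def JJ : ℝ := ∫ x, ww x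

theorem JJ_nonneg : 0 ≤ JJ := integral_nonneg ww_nonneg

/-- small odd functions -/
structure Adm (e : ℝ) (f : ℝ → ℝ) : Prop where
  cont : Continuous f
  odd : ∀ x, f (-x) = -f x
  supp : ∀ x, e ≤ |x| → f x = 0
  bdd : ∀ x, |x| * |f x| ≤ 2

/-- the first primitive -/
noncomputable def GG (e : ℝ) (f : ℝ → ℝ) (x : ℝ) : ℝ := ∫ r in e..x, f r / 2

/-- the second primitive -/
noncomputable def FF (e : ℝ) (f : ℝ → ℝ) (x : ℝ) : ℝ := ∫ r in (0 : ℝ)..x, GG e f r

variable {e : ℝ} {f : ℝ → ℝ}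

theorem Adm.cont2 (h : Adm e f) : Continuous fun r => f r / 2 := h.cont.div_const 2

theorem Adm.hasDerivAt_GG (h : Adm e f) (x : ℝ) : HasDerivAt (GG e f) (f x / 2) x :=
  (h.cont2.integral_hasStrictDerivAt e x).hasDerivAt

theorem Adm.cont_GG (h : Adm e f) : Continuous (GG e f) :=
  continuous_iff_continuousAt.2 fun x => (h.hasDerivAt_GG x).continuousAt

theorem Adm.hasDerivAt_FF (h : Adm e f) (x : ℝ) : HasDerivAt (FF e f) (GG e f x) x :=
  (h.cont_GG.integral_hasStrictDerivAt 0 x).hasDerivAt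

theorem Adm.deriv_FF (h : Adm e f) : deriv (FF e f) = GG e f :=
  funext fun x => (h.hasDerivAt_FF x).deriv

theorem Adm.deriv_GG (h : Adm e f) : deriv (GG e f) = fun x => f x / 2 :=
  funext fun x => (h.hasDerivAt_GG x).deriv

theorem Adm.contDiff_FF (h : Adm e f) : ContDiff ℝ 2 (FF e f) := by
  rw [show (2 : WithTop ℕ∞) = 1 + 1 from rfl, contDiff_succ_iff_deriv]
  refine ⟨fun x => (h.hasDerivAt_FF x).differentiableAt, by simp, ?_⟩
  rw [h.deriv_FF, contDiff_one_iff_deriv, h.deriv_GG]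
  exact ⟨fun x => (h.hasDerivAt_GG x).differentiableAt, h.cont2⟩

theorem Adm.GG_neg (h : Adm e f) (x : ℝ) : GG e f (-x) = GG e f x := by
  have hi : ∀ a b, IntervalIntegrable (fun r => f r / 2) volume a b :=
    fun a b => h.cont2.intervalIntegrable a b
  have h1 : ∫ r in (0 : ℝ)..(-x), f r / 2 = ∫ r in (0 : ℝ)..x, f r / 2 := by
    have h2 := intervalIntegral.integral_comp_neg (a := 0) (b := x) (fun r => f r / 2)
    simp only [h.odd, neg_div, intervalIntegral.integral_neg, neg_zero] at h2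
    rw [intervalIntegral.integral_symm, ← h2, neg_neg]
  unfold GG
  rw [← intervalIntegral.integral_add_adjacent_intervals (hi e 0) (hi 0 (-x)),
    ← intervalIntegral.integral_add_adjacent_intervals (hi e 0) (hi 0 x), h1]

theorem Adm.GG_abs (h : Adm e f) (x : ℝ) : GG e f |x| = GG e f x := by
  rcases abs_choice x with h1 | h1
  · rw [h1]
  · rw [h1, h.GG_neg]

theorem Adm.GG_zero (h : Adm e f) {x : ℝ} (hx : e ≤ |x|) : GG e f x = 0 := by
  rw [← h.GG_abs]
  unfold GG
  rw [intervalIntegral.integral_congr (g := fun _ => (0 : ℝ))]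
  · simp
  · intro r hr
    rw [uIcc_of_le hx] at hr
    simp only [h.supp r (hr.1.trans (le_abs_self r)), zero_div]

theorem Adm.GG_log (h : Adm e f) {x : ℝ} (hx0 : x ≠ 0) (hx : |x| ≤ e) :
    |GG e f x| ≤ Real.log (e / |x|) := by
  have hp : 0 < |x| := abs_pos.2 hx0
  rw [← h.GG_abs]
  unfold GG
  rw [intervalIntegral.integral_symm, abs_neg, ← Real.norm_eq_abs,
    ← integral_one_div_of_pos hp (hp.trans_le hx)]
  refine intervalIntegral.norm_integral_le_of_norm_le hx (ae_of_all _ fun r hr => ?_) ?_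
  · have hr0 : 0 < r := hp.trans hr.1
    have := h.bdd r
    rw [abs_of_pos hr0] at this
    rw [Real.norm_eq_abs, abs_div, abs_two, div_le_div_iff₀ two_pos hr0]
    linarith
  · refine ContinuousOn.intervalIntegrable ?_
    refine continuousOn_const.div continuousOn_id fun r hr => ?_
    rw [uIcc_of_le hx] at hr
    exact (hp.trans_le hr.1).ne'

theorem Adm.GG_bd (h : Adm e f) (he : 0 < e) (he1 : e ≤ 1) {x : ℝ} (hx0 : x ≠ 0) :
    |GG e f x| ≤ 4 * e ^ (1 / 4 : ℝ) * ww x ∧ GG e f x ^ 2 ≤ 16 * e ^ (1 / 2 : ℝ) * ww x := by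
  have hw := ww_nonneg x
  by_cases hx : e ≤ |x|
  · rw [h.GG_zero hx]
    constructor
    · rw [abs_zero]; positivity
    · rw [zero_pow two_ne_zero]; positivity
  push Not at hx
  have hp : 0 < |x| := abs_pos.2 hx0
  have hx1 : |x| ≤ 1 := hx.le.trans he1
  have hwx : ww x = |x| ^ (-(1 / 2) : ℝ) := indicator_of_mem (mem_Icc.2 (abs_le.1 hx1)) _
  have h1 : |GG e f x| ≤ 4 * e ^ (1 / 4 : ℝ) * |x| ^ (-(1 / 4) : ℝ) := by
    refine (h.GG_log hx0 hx.le).trans ((Real.log_le_rpow_div (by positivity)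
      (show (0 : ℝ) < 1 / 4 by norm_num)).trans (le_of_eq ?_))
    rw [Real.div_rpow he.le hp.le, Real.rpow_neg hp.le]
    field_simp
  have h2 : |x| ^ (-(1 / 4) : ℝ) ≤ |x| ^ (-(1 / 2) : ℝ) :=
    Real.rpow_le_rpow_of_exponent_ge hp hx1 (by norm_num)
  rw [hwx]
  refine ⟨h1.trans (mul_le_mul_of_nonneg_left h2 (by positivity)), ?_⟩
  have h3 := pow_le_pow_left₀ (abs_nonneg _) h1 2
  rw [sq_abs] at h3
  refine h3.trans (le_of_eq ?_)
  rw [mul_pow, mul_pow, ← Real.rpow_natCast (e ^ _), ← Real.rpow_mul he.le,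
    ← Real.rpow_natCast (|x| ^ _), ← Real.rpow_mul hp.le]
  norm_num

theorem Adm.compact_GG (h : Adm e f) : HasCompactSupport (GG e f) := by
  refine HasCompactSupport.intro (isCompact_Icc (a := -e) (b := e)) fun x hx => h.GG_zero ?_
  by_contra h1
  push Not at h1
  exact hx (mem_Icc.2 (abs_le.1 h1.le))

theorem ae_ne_zero : ∀ᵐ x : ℝ, x ≠ 0 := by
  have : ∀ᵐ x : ℝ, x ∉ ({0} : Set ℝ) := compl_mem_ae_iff.2 (by simp)
  exact this

theorem Adm.FF_bd (h : Adm e f) (he : 0 < e) (he1 : e ≤ 1) (x : ℝ) :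
    |FF e f x| ≤ 4 * e ^ (1 / 4 : ℝ) * JJ := by
  have hi : Integrable (GG e f) := h.cont_GG.integrable_of_hasCompactSupport h.compact_GG
  unfold FF JJ
  rw [← Real.norm_eq_abs, ← integral_const_mul]
  refine intervalIntegral.norm_integral_le_integral_norm_uIoc.trans
    ((setIntegral_le_integral hi.norm (ae_of_all _ fun _ => norm_nonneg _)).trans ?_)
  refine integral_mono_ae hi.norm (integrable_ww.const_mul _) ?_
  filter_upwards [ae_ne_zero] with y hy using (h.GG_bd he he1 hy).1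

theorem Adm.sq_int (h : Adm e f) : Integrable fun x => GG e f x ^ 2 := by
  have hc : Continuous fun x => GG e f x ^ 2 := h.cont_GG.pow 2
  refine hc.integrable_of_hasCompactSupport ?_
  refine HasCompactSupport.intro (isCompact_Icc (a := -e) (b := e)) fun x hx => ?_
  rw [h.GG_zero, zero_pow two_ne_zero]
  by_contra h1
  push Not at h1
  exact hx (mem_Icc.2 (abs_le.1 h1.le))

theorem Adm.sq_bd (h : Adm e f) (he : 0 < e) (he1 : e ≤ 1) :
    ∫ x, GG e f x ^ 2 ≤ 16 * e ^ (1 / 2 : ℝ) * JJ := by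
  unfold JJ
  rw [← integral_const_mul]
  refine integral_mono_ae h.sq_int (integrable_ww.const_mul _) ?_
  filter_upwards [ae_ne_zero] with y hy using (h.GG_bd he he1 hy).2

theorem gauss_bd {g : ℝ → ℝ} (hg : Integrable g) (h0 : ∀ x, 0 ≤ g x) {s : ℝ} (hs : 0 < s) :
    ∫ x, g x ∂(gaussianReal 0 (4 * s).toNNReal) ≤ (√s)⁻¹ * ∫ x, g x := by
  have hv : (4 * s).toNNReal ≠ 0 := by
    rw [Ne, Real.toNNReal_eq_zero, not_le]; positivity
  rw [integral_gaussianReal_eq_integral_smul hv, ← integral_const_mul]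
  refine integral_mono_of_nonneg (ae_of_all _ fun x => ?_) (hg.const_mul _)
    (ae_of_all _ fun x => ?_)
  · exact mul_nonneg (gaussianPDFReal_nonneg _ _ _) (h0 x)
  · simp only [smul_eq_mul]
    refine mul_le_mul_of_nonneg_right ?_ (h0 x)
    unfold gaussianPDFReal
    have h1 : Real.exp (-(x - 0) ^ 2 / (2 * ((4 * s).toNNReal : ℝ))) ≤ 1 := by
      rw [Real.exp_le_one_iff]
      exact div_nonpos_of_nonpos_of_nonneg (neg_nonpos.2 (sq_nonneg _)) (by positivity)
    have h2 : (√(2 * Real.pi * ((4 * s).toNNReal : ℝ)))⁻¹ ≤ (√s)⁻¹ := by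
      refine inv_anti₀ (Real.sqrt_pos.2 hs) (Real.sqrt_le_sqrt ?_)
      rw [Real.coe_toNNReal _ (by positivity)]
      nlinarith [Real.pi_gt_three]
    calc _ ≤ (√s)⁻¹ * 1 := mul_le_mul h2 h1 (Real.exp_pos _).le (by positivity)
      _ = _ := mul_one _

theorem sum_inv_sqrt (N : ℕ) : ∑ i ∈ Finset.range N, (√((i : ℝ) + 1))⁻¹ ≤ 2 * √N := by
  induction N with
  | zero => simp
  | succ N ih =>
    rw [Finset.sum_range_succ]
    push_cast
    have h1 : 0 < √((N : ℝ) + 1) := Real.sqrt_pos.2 (by positivity)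
    have h2 : √((N : ℝ) + 1) ^ 2 = N + 1 := Real.sq_sqrt (by positivity)
    have h3 : √(N : ℝ) ^ 2 = N := Real.sq_sqrt (by positivity)
    have h4 : (√((N : ℝ) + 1))⁻¹ ≤ 2 * √((N : ℝ) + 1) - 2 * √N := by
      rw [inv_le_iff_one_le_mul₀ h1]
      nlinarith [sq_nonneg (√((N : ℝ) + 1) - √N)]
    linarith

end PVX

end Vale.Agent.P155.Tree
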