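import Vale.Agent.P155Z.PVX.Ana

/-!
# P155, block PVX: the maximal estimate
-/

namespace Vale.Agent.P155.Tree

open MeasureTheory Filter Topology ProbabilityTheory Set

namespace PVX

theorem tt_nonneg (n i : ℕ) : 0 ≤ tt n i := by unfold tt; positivity

theorem tt_mono (n : ℕ) {i j : ℕ} (h : i ≤ j) : tt n i ≤ tt n j := by
  unfold tt
  gcongr

theorem tt_floor_le {t : ℝ} (ht : 0 ≤ t) (n : ℕ) : tt n ⌊t * 2 ^ n⌋₊ ≤ t := by
  unfold tt
  rw [div_le_iff₀ (by positivity)]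
  exact Nat.floor_le (by positivity)

theorem tt_floor {t : ℝ} (ht : 0 ≤ t) : Tendsto (fun n => tt n ⌊t * 2 ^ n⌋₊) atTop (𝓝 t) :=
  (tendsto_nat_floor_mul_div_atTop ht).comp (tendsto_pow_atTop_atTop_of_one_lt one_lt_two)

/-- the first grid index at which `M` is large -/
noncomputable def mm (M : ℝ → ℝ) (δ : ℝ) (n : ℕ) : ℕ := sInf {j | δ < |M (tt n j)|}

theorem stop {M : ℝ → ℝ} (hM : Continuous M) {δ : ℝ} {T : ℕ} {t₁ : ℝ} (h1 : t₁ ∈ Icc (0 : ℝ) T)
    (h2 : δ < |M t₁|) : ∃ ρ, 0 ≤ ρ ∧ Tendsto (fun n => tt n (mm M δ n)) atTop (𝓝 ρ) ∧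
      δ ≤ |M ρ| ∧ ∀ᶠ n in atTop, mm M δ n ≤ T * 2 ^ n ∧
        ∀ i, (i < mm M δ n ↔ ∀ j, j ≤ i → |M (tt n j)| ≤ δ) := by
  have hA : ∀ t, 0 ≤ t → δ < |M t| → ∀ᶠ n in atTop, δ < |M (tt n ⌊t * 2 ^ n⌋₊)| := by
    intro t ht h
    exact (((hM.abs.tendsto t).comp (tt_floor ht)).eventually (lt_mem_nhds h))
  have hB : ∀ᶠ n in atTop, δ < |M (tt n (mm M δ n))| := by
    filter_upwards [hA t₁ h1.1 h2] with n hn
    exact Nat.sInf_mem (s := {j | δ < |M (tt n j)|}) ⟨_, hn⟩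
  have hne : {t | 0 ≤ t ∧ δ < |M t|}.Nonempty := ⟨t₁, h1.1, h2⟩
  have hbd : BddBelow {t | 0 ≤ t ∧ δ < |M t|} := ⟨0, fun _ h => h.1⟩
  have hT : Tendsto (fun n => tt n (mm M δ n)) atTop (𝓝 (sInf {t | 0 ≤ t ∧ δ < |M t|})) := by
    refine tendsto_order.2 ⟨fun a ha => ?_, fun b hb => ?_⟩
    · filter_upwards [hB] with n hn
      exact ha.trans_le (csInf_le hbd ⟨tt_nonneg _ _, hn⟩)
    · obtain ⟨t, ht, htb⟩ := exists_lt_of_csInf_lt hne hb
      filter_upwards [hA t ht.1 ht.2] with n hn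
      exact ((tt_mono n (Nat.sInf_le hn)).trans (tt_floor_le ht.1 n)).trans_lt htb
  refine ⟨_, le_csInf hne fun _ h => h.1, hT, ?_, ?_⟩
  · exact ge_of_tendsto ((hM.abs.tendsto _).comp hT) (hB.mono fun n hn => hn.le)
  · filter_upwards [hA t₁ h1.1 h2, hB] with n hn hn'
    refine ⟨(Nat.sInf_le hn).trans ?_, fun i => ⟨fun hi j hj => ?_, fun h => ?_⟩⟩
    · refine Nat.floor_le_of_le ?_
      push_cast
      exact mul_le_mul_of_nonneg_right h1.2 (by positivity)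
    · exact not_lt.1 (Nat.notMem_of_lt_sInf (hj.trans_lt hi))
    · by_contra h3
      exact absurd (h _ (not_lt.1 h3)) (not_le.2 hn')

variable {Θ : Type} [m : MeasurableSpace Θ] {P : Measure Θ} (S : BSys P) {e : ℝ} {f : ℝ → ℝ}

/-- the martingale -/
noncomputable def MM (e : ℝ) (f : ℝ → ℝ) (x : ℝ → ℝ) (t : ℝ) : ℝ :=
  FF e f (x t) - ∫ s in (0 : ℝ)..t, f (x s)

open Classical in
/-- the stopped integrands -/
noncomputable def θθ (e : ℝ) (f : ℝ → ℝ) (δ : ℝ) (n i : ℕ) (ω : Θ) : ℂ :=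
  if ∀ j, j ≤ i → |MM e f (S.X ω) (tt n j)| ≤ δ then (GG e f (S.X ω (tt n i)) : ℂ) else 0

theorem Adm.compact (h : Adm e f) : HasCompactSupport f := by
  refine HasCompactSupport.intro (isCompact_Icc (a := -e) (b := e)) fun x hx => h.supp x ?_
  by_contra h1
  push Not at h1
  exact hx (mem_Icc.2 (abs_le.1 h1.le))

theorem Adm.cont_FF (h : Adm e f) : Continuous (FF e f) := h.contDiff_FF.continuous

theorem norm_θθ (δ : ℝ) (n i : ℕ) (ω : Θ) :
    ‖θθ S e f δ n i ω‖ ≤ |GG e f (S.X ω (tt n i))| := by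
  unfold θθ
  split_ifs
  · rw [Complex.norm_real, Real.norm_eq_abs]
  · rw [norm_zero]; exact abs_nonneg _

theorem arr (hM : PVM) (h : Adm e f) (δ : ℝ) : Arr S (θθ S e f δ) := by
  obtain ⟨C, hC⟩ := h.compact.exists_bound_of_continuous h.cont
  obtain ⟨K, hK⟩ := h.compact_GG.exists_bound_of_continuous h.cont_GG
  refine ⟨fun n i => ?_, K, fun n i ω => (norm_θθ S δ n i ω).trans (hK _)⟩
  have hI := (hM Θ m P S f h.cont.measurable ⟨C, hC⟩).2
  have hMM : ∀ j, j ≤ i → Measurable[S.F (tt n i)] fun ω => MM e f (S.X ω) (tt n j) := by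
    intro j hj
    refine Measurable.mono (ma := S.F (tt n j)) ?_ (S.F.mono (tt_mono n hj)) le_rfl
    exact (h.cont_FF.measurable.comp (S.ad _)).sub (hI _ (tt_nonneg _ _))
  unfold θθ
  refine Measurable.ite ?_
    (Complex.measurable_ofReal.comp (h.cont_GG.measurable.comp (S.ad _))) measurable_const
  have h1 : {ω | ∀ j, j ≤ i → |MM e f (S.X ω) (tt n j)| ≤ δ} =
      ⋂ j, ⋂ _ : j ≤ i, {ω | |MM e f (S.X ω) (tt n j)| ≤ δ} := by
    ext ω; simp
  rw [h1]
  refine MeasurableSet.iInter fun j => MeasurableSet.iInter fun hj => ?_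
  exact measurableSet_le (mδ := S.F (tt n i)) (measurable_abs.comp (hMM j hj)) measurable_const

theorem law (s : ℝ) (hs : 0 ≤ s) :
    HasLaw (fun ω => S.X ω s) (gaussianReal 0 (4 * s).toNNReal) P := by
  have := S.law 0 s le_rfl hs
  simpa only [S.zero _ 0 le_rfl, sub_zero] using this

theorem mom (hSI : SI) (hM : PVM) (h : Adm e f) (he : 0 < e) (he1 : e ≤ 1) (δ : ℝ) (T n : ℕ) :
    ∫ ω, ‖RS S.X (θθ S e f δ) T n ω‖ ^ 2 ∂P ≤
      4 * GG e f 0 ^ 2 / 2 ^ n + 8 * √T * (16 * e ^ (1 / 2 : ℝ) * JJ) := by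
  have := S.prob
  obtain ⟨K, hK⟩ := h.compact_GG.exists_bound_of_continuous h.cont_GG
  have hc : Continuous fun x => GG e f x ^ 2 := h.cont_GG.pow 2
  have hi : ∀ s, Integrable (fun ω => GG e f (S.X ω s) ^ 2) P := by
    intro s
    have h1 : Measurable fun ω => S.X ω s := (S.ad s).mono (S.F.le s) le_rfl
    refine Integrable.of_bound (hc.measurable.comp h1).aestronglyMeasurable (K ^ 2)
      (ae_of_all _ fun ω => ?_)
    rw [norm_pow]
    exact pow_le_pow_left₀ (norm_nonneg _) (hK _) 2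
  have hJ := JJ_nonneg
  set A := 16 * e ^ (1 / 2 : ℝ) * JJ with hA
  have hA0 : 0 ≤ A := by positivity
  have h1 : ∀ i : ℕ, ∫ ω, GG e f (S.X ω (tt n (i + 1))) ^ 2 ∂P ≤
      √(2 ^ n) * A * (√((i : ℝ) + 1))⁻¹ := by
    intro i
    have hs : 0 < tt n (i + 1) := by unfold tt; positivity
    have h2 := (law S _ hs.le).integral_comp (f := fun x => GG e f x ^ 2) hc.aestronglyMeasurable
    refine h2.trans_le ((gauss_bd h.sq_int (fun x => sq_nonneg _) hs).trans ?_)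
    refine (mul_le_mul_of_nonneg_left (h.sq_bd he he1) (by positivity)).trans (le_of_eq ?_)
    unfold tt
    rw [Real.sqrt_div' _ (by positivity), inv_div, ← hA]
    push_cast
    ring
  rw [((hSI Θ m P S _ (arr S hM h δ) T).1 n).2.2]
  calc _ ≤ ∫ ω, 4 / 2 ^ n * ∑ i ∈ Finset.range (T * 2 ^ n + 1),
        GG e f (S.X ω (tt n i)) ^ 2 ∂P := by
        refine integral_mono_of_nonneg (ae_of_all _ fun ω => by positivity)
          ((integrable_finsetSum _ fun i _ => hi _).const_mul _) (ae_of_all _ fun ω => ?_)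
        refine mul_le_mul_of_nonneg_left ?_ (by positivity)
        rw [Finset.sum_range_succ]
        refine le_add_of_le_of_nonneg (Finset.sum_le_sum fun i _ => ?_) (sq_nonneg _)
        rw [← sq_abs (GG _ _ _)]
        exact pow_le_pow_left₀ (norm_nonneg _) (norm_θθ S δ n i ω) 2
    _ = 4 / 2 ^ n * (∑ i ∈ Finset.range (T * 2 ^ n),
        ∫ ω, GG e f (S.X ω (tt n (i + 1))) ^ 2 ∂P + GG e f 0 ^ 2) := by
        rw [integral_const_mul, integral_finsetSum _ fun i _ => hi _, Finset.sum_range_succ']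
        have h0 : tt n 0 = 0 := by simp [tt]
        simp only [h0, S.zero _ 0 le_rfl, integral_const, probReal_univ, one_smul]
    _ ≤ 4 / 2 ^ n * (√(2 ^ n) * A * (2 * √((T * 2 ^ n : ℕ) : ℝ)) + GG e f 0 ^ 2) := by
        refine mul_le_mul_of_nonneg_left (add_le_add_left ?_ _) (by positivity)
        refine (Finset.sum_le_sum fun i _ => h1 i).trans ?_
        rw [← Finset.mul_sum]
        exact mul_le_mul_of_nonneg_left (sum_inv_sqrt _) (by positivity)
    _ = _ := by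
        push_cast
        rw [Real.sqrt_mul (Nat.cast_nonneg T)]
        have h2 : √((2 : ℝ) ^ n) * √((2 : ℝ) ^ n) = 2 ^ n := Real.mul_self_sqrt (by positivity)
        have h3 : √((2 : ℝ) ^ n) * A * (2 * (√T * √((2 : ℝ) ^ n))) = 2 ^ n * (2 * √T * A) := by
          rw [← h2]
          nth_rewrite 1 [h2, h2]
          ring
        rw [h3]
        field_simp
        ring

theorem key (hSI : SI) (hP : PATH) (hF : FOL2) (hM : PVM) (h : Adm e f) (he : 0 < e)
    (he1 : e ≤ 1) {δ c : ℝ} (hδ : 0 < δ) (T : ℕ)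
    (hc : 8 * √T * (16 * e ^ (1 / 2 : ℝ) * JJ) < (δ / 2) ^ 2 * c) :
    P {ω | ∃ t ∈ Icc (0 : ℝ) T, δ < |MM e f (S.X ω) t|} ≤ ENNReal.ofReal c := by
  have := S.prob
  obtain ⟨C, hC⟩ := h.compact.exists_bound_of_continuous h.cont
  refine meas_le_of_ev
    (B := fun n => {ω | (δ / 2) ^ 2 ≤ ‖RS S.X (θθ S e f δ) T n ω‖ ^ 2}) ?_ ?_
  · filter_upwards [hP Θ m P S] with ω hω ⟨t, ht, htδ⟩
    have hcM : Continuous (MM e f (S.X ω)) :=
      (h.cont_FF.comp (S.cont ω)).sub ((hM Θ m P S f h.cont.measurable ⟨C, hC⟩).1 ω)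
    obtain ⟨ρ, h0, h1, h2, h3⟩ := stop hcM ht htδ
    have h4 := hF _ (S.cont ω) hω.1 ρ _ h0 h1 _ h.contDiff_FF
    have h5 : FF e f (S.X ω ρ) - FF e f (S.X ω 0) -
        2 * ∫ s in (0 : ℝ)..ρ, deriv (deriv (FF e f)) (S.X ω s) = MM e f (S.X ω) ρ := by
      rw [h.deriv_FF, h.deriv_GG, S.zero _ 0 le_rfl, intervalIntegral.integral_div]
      simp only [FF, MM, intervalIntegral.integral_same]
      ring
    rw [h5, h.deriv_FF] at h4
    have h6 : δ / 2 < |MM e f (S.X ω) ρ| := by linarith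
    filter_upwards [h4.abs.eventually (lt_mem_nhds h6), h3] with n hn hn'
    have h7 : RS S.X (θθ S e f δ) T n ω = ((∑ i ∈ Finset.range (mm (MM e f (S.X ω)) δ n),
        GG e f (S.X ω (tt n i)) * dx (S.X ω) n i : ℝ) : ℂ) := by
      unfold RS
      push_cast
      rw [← Finset.sum_subset (Finset.range_subset_range.2 hn'.1)]
      · refine Finset.sum_congr rfl fun i hi => ?_
        unfold θθ
        rw [if_pos ((hn'.2 i).1 (Finset.mem_range.1 hi))]
      · intro i _ hi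
        unfold θθ
        rw [if_neg fun h8 => hi (Finset.mem_range.2 ((hn'.2 i).2 h8)), zero_mul]
    show _ ≤ _
    rw [h7, Complex.norm_real, Real.norm_eq_abs]
    exact pow_le_pow_left₀ (by positivity) hn.le 2
  · have h1 : Tendsto (fun n : ℕ => 4 * GG e f 0 ^ 2 / 2 ^ n +
        8 * √T * (16 * e ^ (1 / 2 : ℝ) * JJ)) atTop
        (𝓝 (0 + 8 * √T * (16 * e ^ (1 / 2 : ℝ) * JJ))) :=
      (tendsto_const_nhds.div_atTop (tendsto_pow_atTop_atTop_of_one_lt one_lt_two)).add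
        tendsto_const_nhds
    rw [zero_add] at h1
    filter_upwards [h1.eventually (gt_mem_nhds hc)] with n hn
    have h2 := ((hSI Θ m P S _ (arr S hM h δ) T).1 n).2.1
    have h3 : Integrable (fun ω => ‖RS S.X (θθ S e f δ) T n ω‖ ^ 2) P :=
      (memLp_two_iff_integrable_sq_norm h2.1).1 h2
    have h4 := mul_meas_ge_le_integral_of_nonneg (ae_of_all _ fun ω => by positivity) h3
      ((δ / 2) ^ 2)
    have h5 := (h4.trans (mom S hSI hM h he he1 δ T n)).trans hn.le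
    rw [← ofReal_measureReal]
    exact ENNReal.ofReal_le_ofReal (le_of_mul_le_mul_left h5 (by positivity))

theorem key1 (hSI : SI) (hP : PATH) (hF : FOL2) (hM : PVM) (T : ℕ) {η : ℝ} (hη : 0 < η) :
    ∃ e, 0 < e ∧ ∀ f, Adm e f →
      P {ω | ∃ t ∈ Icc (0 : ℝ) T, η < |∫ s in (0 : ℝ)..t, f (S.X ω s)|} ≤ ENNReal.ofReal η := by
  have h0 : ∀ p : ℝ, 0 < p → ∀ C : ℝ, Tendsto (fun e : ℝ => C * e ^ p * JJ) (𝓝[>] 0) (𝓝 0) := by
    intro p hp C
    have h1 := (Real.continuousAt_rpow_const 0 p (Or.inr hp.le)).tendsto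
    rw [Real.zero_rpow hp.ne'] at h1
    have h2 := ((h1.mono_left (nhdsWithin_le_nhds (s := Ioi 0))).const_mul C).mul_const JJ
    rwa [mul_zero, zero_mul] at h2
  have h1 := (h0 (1 / 4) (by norm_num) 4).eventually (gt_mem_nhds (half_pos hη))
  have h2 := ((h0 (1 / 2) (by norm_num) 16).const_mul (8 * √T))
  rw [mul_zero] at h2
  have h3 := h2.eventually (gt_mem_nhds (show 0 < (η / 2 / 2) ^ 2 * η by positivity))
  have h4 : ∀ᶠ e : ℝ in 𝓝[>] 0, e ∈ Ioc 0 1 := Ioc_mem_nhdsGT one_pos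
  obtain ⟨e, ⟨he1, he2⟩, he3⟩ := ((h1.and h3).and h4).exists
  refine ⟨e, he3.1, fun f h => le_trans (measure_mono ?_)
    (key S hSI hP hF hM h he3.1 he3.2 (half_pos hη) T he2)⟩
  rintro ω ⟨t, ht, h5⟩
  refine ⟨t, ht, ?_⟩
  have h6 := h.FF_bd he3.1 he3.2 (S.X ω t)
  have h7 := abs_sub_abs_le_abs_sub (∫ s in (0 : ℝ)..t, f (S.X ω s)) (FF e f (S.X ω t))
  unfold MM
  rw [abs_sub_comm]
  linarith

end PVX

end Vale.Agent.P155.Tree
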